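import Vale.Agent.Lib.P042.Ruzsa

/-!
# P042: a lower bound for sets without cube differences

For `h(x) = x^3` we show `r_h(N) ≥ c * N ^ 0.8616`.  The proof is Ruzsa's digit construction with the
squarefree modulus `91 = 7 * 13` and a set of `14` residues no two of which differ by a cubic
residue modulo `91`.
-/

namespace Vale.Agent.Results.P042.CubeDifferences

open Vale.Agent.Lib.P042

/-- Fourteen residues modulo `91`, no two differing by a cube modulo `91`. -/
def residues : Finset ℕ := {14, 17, 32, 36, 39, 42, 58, 61, 64, 68, 80, 83, 86, 90}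

theorem residues_lt : ∀ r ∈ residues, r < 91 := by decide

theorem residues_card : residues.card = 14 := by decide

theorem residues_check : ∀ r ∈ residues, ∀ r' ∈ residues, r ≠ r' →
    ∃ p ∈ ({7, 13} : Finset ℕ), ∀ n ∈ Finset.range p, (r' + n ^ 3) % p ≠ r % p := by
  decide +kernel

theorem residues_cond : ∀ r ∈ residues, ∀ r' ∈ residues, r ≠ r' →
    ∀ n : ℕ, (r' + n ^ 3) % 91 ≠ r % 91 := by
  apply residue_condition_of_divisors
  intro r hr r' hr' hrr
  obtain ⟨p, hp, h⟩ := residues_check r hr r' hr' hrr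
  refine ⟨p, ?_, ?_, fun n hn => h n (Finset.mem_range.2 hn)⟩
  · simp only [Finset.mem_insert, Finset.mem_singleton] at hp
    rcases hp with rfl | rfl <;> norm_num
  · simp only [Finset.mem_insert, Finset.mem_singleton] at hp
    rcases hp with rfl | rfl <;> norm_num

theorem squarefree_91 : Squarefree 91 := by decide +kernel

theorem exponent_ok : (((91 : ℕ) : ℝ) ^ 3) ^ (0.8616 : ℝ) ≤
    (residues.card : ℝ) * ((91 : ℕ) : ℝ) ^ (3 - 1) := by
  rw [residues_card]
  have h : (0.8616 : ℝ) = ((1077 : ℕ) : ℝ) / ((1250 : ℕ) : ℝ) := by norm_num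
  rw [h]
  apply rpow_le_of_pow_le (by positivity) (by positivity) (by norm_num)
  have h2 : (91 ^ 3) ^ 1077 ≤ (14 * 91 ^ (3 - 1)) ^ 1250 := by decide +kernel
  exact_mod_cast h2

/-- There is `c > 0` such that for every `N ≥ 1` some `A ⊆ {1, …, N}` with
`|A| ≥ c * N ^ 0.8616` has no two elements differing by a positive perfect cube. -/
theorem result : ∃ c : ℝ, 0 < c ∧ ∀ N : ℕ, 1 ≤ N → ∃ A : Finset ℕ, A ⊆ Finset.Icc 1 N ∧
    (∀ a ∈ A, ∀ b ∈ A, ∀ n : ℕ, 1 ≤ n → (a : ℤ) - (b : ℤ) ≠ (n : ℤ) ^ 3) ∧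
    c * (N : ℝ) ^ (0.8616 : ℝ) ≤ (A.card : ℝ) := by
  refine ⟨((residues.card : ℝ) * ((91 : ℕ) : ℝ) ^ (3 - 1))⁻¹, ?_, ?_⟩
  · rw [residues_card]; positivity
  · intro N hN
    obtain ⟨A, hA, hfree, hcard⟩ := ruzsa_lower_bound (k := 3) (m := 91) (R := residues)
      (by norm_num) squarefree_91 (by norm_num) residues_lt residues_cond
      (γ := 0.8616) (by norm_num) exponent_ok N hN
    refine ⟨A, hA, hfree, ?_⟩
    have hpos : (0 : ℝ) < (residues.card : ℝ) * ((91 : ℕ) : ℝ) ^ (3 - 1) := by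
      rw [residues_card]; positivity
    rw [inv_mul_le_iff₀ hpos]
    exact hcard

end Vale.Agent.Results.P042.CubeDifferences
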